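import Crest.Agent.X212.Rs52.Tst
import Crest.Agent.X212.Rs52.Gen
import Crest.Agent.X212.Rs52.Rod
import Crest.Agent.X212.Rs52.Abs
import Crest.Agent.X212.Rs52.Wrd
import Crest.Agent.X212.Rs52.Int
import Crest.Agent.X212.Rs52.Lat
import Crest.Agent.X212.Rs52.Num
import Crest.Agent.X212.Rs83.Sim
import Crest.Agent.X212.Rs52.Main
import Crest.Agent.X212.Mv27.Can
import Crest.Agent.X212.Brk99.Main
import Crest.Agent.X212.Po96.Out
import Crest.Agent.X212.Loc8.HgS
import Crest.Agent.X212.Ord99.Main
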